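import Vale.Agent.P286.H96.DGD
import Vale.Agent.P286.Loop

/-!
# The stacks `Bun_G(E)` for an elliptic curve `E` and `G = SL_2`, `SO_3 = PGL_2`

`E` is the curve `y² = x³ + a x + b` with the origin `o` and the formal coordinate `t` at `o`,
`x = t⁻²`.  A vector bundle `V` on `E_A` with a trivialisation on the formal disc at `o` is given by
the module `M ⊆ A((t))^N` of its sections over `E_A - o`; its cohomology is computed by the map
`M → A((t))^N / A[[t]]^N` (polar parts).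
-/

namespace Vale.Agent.P286E

open CategoryTheory Matrix Vale.Agent.P286

noncomputable section

/-- Laurent series. -/
abbrev Ls (A : Type) [CommRing A] : Type := LaurentSeries A

variable {A B D : Type} [CommRing A] [CommRing B] [CommRing D] {N : ℕ}

/-- Base change of Laurent series (coefficientwise). -/
def lm (f : A →+* B) : Ls A →+* Ls B where
  toFun w := w.map f
  map_zero' := HahnSeries.map_zero f.toZeroHom
  map_one' := HahnSeries.map_one f.toMonoidWithZeroHom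
  map_add' _ _ := HahnSeries.map_add f.toAddMonoidHom
  map_mul' _ _ := HahnSeries.map_mul f.toNonUnitalRingHom

/-- The series `w` lies in `tⁿ A[[t]]`. -/
def Ord (n : ℤ) (w : Ls A) : Prop := ∀ k < n, w.coeff k = 0

/-- The function `x = t⁻²`. -/
def xs (A : Type) [CommRing A] : Ls A := HahnSeries.single (-2) 1

/-- An elliptic curve, with the expansion of `y` at the origin. -/
structure Ell where
  a : ℂ
  b : ℂ
  y : Ls ℂ
  disc : 4 * a ^ 3 + 27 * b ^ 2 ≠ 0
  eqn : y ^ 2 = xs ℂ ^ 3 + a • xs ℂ + b • 1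
  lead : y.coeff (-3) = 1

/-- The series `w` is a function on `E_A - o`: `w = p(x) + q(x) y`. -/
def Ell.Reg (E : Ell) [Algebra ℂ A] (w : Ls A) : Prop :=
  ∃ p q : Polynomial A, w = p.eval₂ HahnSeries.C (xs A) +
    q.eval₂ HahnSeries.C (xs A) * lm (algebraMap ℂ A) E.y

/-- The free module `A((t))^N / A[[t]]^N`, with the basis `t^(-k-1) e_i`. -/
abbrev Qm (N : ℕ) (A : Type) [CommRing A] : Type := ℕ × Fin N →₀ A

theorem pol_fin (v : Fin N → Ls A) :
    (Function.support fun p : ℕ × Fin N => (v p.2).coeff (-(p.1 + 1 : ℤ))).Finite := by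
  refine ((Set.finite_Iic (Finset.univ.sup fun i => (-(v i).order).toNat)).prod
    Set.finite_univ).subset fun p hp => ⟨?_, trivial⟩
  have h1 : (v p.2).order ≤ -(p.1 + 1 : ℤ) := HahnSeries.order_le_of_coeff_ne_zero hp
  have h2 : (-(v p.2).order).toNat ≤ Finset.univ.sup fun i => (-(v i).order).toNat :=
    Finset.le_sup (f := fun i => (-(v i).order).toNat) (Finset.mem_univ p.2)
  exact Set.mem_Iic.2 (by omega)

/-- The polar part. -/
def pol (N : ℕ) (A : Type) [CommRing A] : (Fin N → Ls A) →ₗ[A] Qm N A where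
  toFun v := Finsupp.ofSupportFinite _ (pol_fin v)
  map_add' _ _ := Finsupp.ext fun _ => rfl
  map_smul' _ _ := Finsupp.ext fun _ => rfl

/-- The linear map with the given values on the basis. -/
def lin (v : ℕ × Fin N → Fin N → Ls A) : Qm N A →ₗ[A] (Fin N → Ls A) :=
  Finsupp.linearCombination A v

/-- The standard vectors `t^(-k-1) e_i`. -/
def std (N : ℕ) (A : Type) [CommRing A] (p : ℕ × Fin N) : Fin N → Ls A :=
  Pi.single p.2 (HahnSeries.single (-(p.1 + 1 : ℤ)) 1)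

/-- The vectors `v p` are an *admissible basis* of their span `M`: up to an operator of finite rank
the polar part of `v p` is the standard vector, and `M → A((t))^N / tⁿ A[[t]]^N` is a split
injection for some `n`. -/
def Adm (v : ℕ × Fin N → Fin N → Ls A) : Prop :=
  FinRank (pol N A ∘ₗ lin v - 1) ∧ ∃ (n : ℤ) (L : (Fin N → Ls A) →ₗ[A] Qm N A),
    L ∘ₗ lin v = 1 ∧ ∀ w, (∀ i, Ord n (w i)) → L w = 0

/-- The coordinates in the basis `v`. -/
def crd (v : ℕ × Fin N → Fin N → Ls A) : (Fin N → Ls A) →ₗ[A] Qm N A :=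
  Classical.epsilon fun L => L ∘ₗ lin v = 1

/-- The group of the matrices of determinant `1` which preserve the form `F`, with a basis `β` of its
Lie algebra such that `tr (β i * β j) = 2 δ_ij`. -/
structure Grp where
  N : ℕ
  F : Matrix (Fin N) (Fin N) ℂ
  β : Fin 3 → Matrix (Fin N) (Fin N) ℂ

open Complex in
/-- `SL_2 = Sp_2` with the Pauli matrices. -/
def SL2 : Grp := ⟨2, !![0, 1; -1, 0], ![!![0, 1; 1, 0], !![0, -I; I, 0], !![1, 0; 0, -1]]⟩

open Complex in
/-- `SO_3 = PGL_2` with the infinitesimal rotations. -/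
def SO3 : Grp := ⟨3, 1, ![!![0, 0, 0; 0, 0, -I; 0, I, 0], !![0, 0, I; 0, 0, 0; -I, 0, 0],
  !![0, -I, 0; I, 0, 0; 0, 0, 0]]⟩

/-- A constant matrix. -/
def cst (A : Type) [CommRing A] [Algebra ℂ A] (m : Matrix (Fin N) (Fin N) ℂ) :
    Matrix (Fin N) (Fin N) (Ls A) := m.map fun c => HahnSeries.C (algebraMap ℂ A c)

/-- The element `∑ ξ_i β_i` of `𝔤 ⊗ A((t))`. -/
def Grp.hat (G : Grp) [Algebra ℂ A] (ξ : Fin 3 → Ls A) : Matrix (Fin G.N) (Fin G.N) (Ls A) :=
  ∑ i, ξ i • cst A (G.β i)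

/-- The matrix of the adjoint action of `a` in the basis `β`. -/
def Grp.ad (G : Grp) [Algebra ℂ A] (a : Matrix (Fin G.N) (Fin G.N) (Ls A)) :
    Matrix (Fin 3) (Fin 3) (Ls A) :=
  of fun i j => algebraMap ℂ A 2⁻¹ • trace (cst A (G.β i) * a * cst A (G.β j) * a.adjugate)

/-- A `G`-bundle `V` on `E_A` with a trivialisation on the formal disc, given by the sections `M`
of the vector bundle `V` over `E_A - o`, and an admissible basis `T` of the sections of the adjoint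
bundle; it defines a generator of `ω = det RΓ(𝔤_V)`. -/
structure Ob (E : Ell) (G : Grp) : Type 1 where
  A : SmAlg
  M : Submodule A.R (Fin G.N → Ls A.R)
  adm : ∃ v, Adm v ∧ LinearMap.range (lin v) = M
  reg : ∀ w : Ls A.R, E.Reg w → ∀ m ∈ M, w • m ∈ M
  form : ∀ m ∈ M, ∀ m' ∈ M, E.Reg (m ⬝ᵥ cst A.R G.F *ᵥ m')
  vol : ∀ m : Fin G.N → Fin G.N → Ls A.R, (∀ i, m i ∈ M) → E.Reg (of m).det
  T : ℕ × Fin 3 → Fin 3 → Ls A.R
  admT : Adm T
  lie : ∀ p, ∀ m ∈ M, G.hat (T p) *ᵥ m ∈ M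

variable {E : Ell} {G : Grp}

/-- A homomorphism `f` and `a ∈ G(B[[t]])` which maps the base change of `V` and `𝔤_V` to `V'` and
`𝔤_{V'}`. -/
@[ext]
structure Mo (X Y : Ob E G) : Type where
  f : X.A.Hm Y.A
  a : Matrix (Fin G.N) (Fin G.N) (Ls Y.A.R)
  int : ∀ i j, Ord 0 (a i j)
  det : a.det = 1
  form : aᵀ * cst Y.A.R G.F * a = cst Y.A.R G.F
  lat : ∀ m ∈ X.M, a *ᵥ (lm f.r ∘ m) ∈ Y.M
  lie : ∀ z, ∃ w, G.hat (lin Y.T w) * a = a * (G.hat (lin X.T z)).map (lm f.r)

theorem lm_lm (f : A →+* B) (g : B →+* D) (w : Ls A) : lm g (lm f w) = lm (g.comp f) w := rfl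

theorem lm_cst [Algebra ℂ A] [Algebra ℂ B] (f : A →ₐ[ℂ] B) (m : Matrix (Fin N) (Fin N) ℂ) :
    (cst A m).map (lm (f : A →+* B)) = cst B m := by
  refine Matrix.ext fun i j => ?_
  exact (HahnSeries.map_single (f := (f : A →+* B).toZeroHom)).trans
    (congrArg (HahnSeries.single (0 : ℤ)) (f.commutes _))

theorem Ord.mul {u w : Ls A} (hu : Ord 0 u) (hw : Ord 0 w) : Ord 0 (u * w) := fun k hk => by
  rw [HahnSeries.coeff_mul]
  refine Finset.sum_eq_zero fun p hp => ?_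
  have h : p.1 + p.2 = k := ((Finset.mem_antidiagonal (hs := u.isPWO_support)
    (ht := w.isPWO_support)).1 hp).2.2
  by_cases h1 : p.1 < 0
  · rw [hu _ h1, zero_mul]
  · rw [hw p.2 (by omega), mul_zero]

/-- The identity. -/
def Mo.one (X : Ob E G) : Mo X X where
  f := SmAlg.Hm.id X.A
  a := 1
  int i j k hk := by
    rw [Matrix.one_apply]
    split_ifs
    · exact HahnSeries.coeff_single_of_ne hk.ne
    · rfl
  det := det_one
  form := by rw [transpose_one, Matrix.one_mul, Matrix.mul_one]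
  lat m hm := by rw [one_mulVec]; exact hm
  lie z := ⟨z, by rw [Matrix.one_mul, Matrix.mul_one]; rfl⟩

/-- The composition. -/
def Mo.comp {X Y Z : Ob E G} (φ : Mo X Y) (ψ : Mo Y Z) : Mo X Z where
  f := ψ.f.comp φ.f
  a := ψ.a * φ.a.map (lm ψ.f.r)
  int i j k hk := by
    rw [Matrix.mul_apply, HahnSeries.coeff_sum]
    exact Finset.sum_eq_zero fun l _ => (ψ.int i l).mul (fun n hn =>
      (congrArg ψ.f (φ.int l j n hn)).trans (map_zero _)) k hk
  det := by rw [det_mul, ψ.det, one_mul, ← RingHom.mapMatrix_apply, ← RingHom.map_det, φ.det, map_one]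
  form := by
    have h := congrArg (fun m => m.map (lm ψ.f.r)) φ.form
    simp only [Matrix.map_mul, lm_cst, transpose_map] at h
    rw [transpose_mul, Matrix.mul_assoc, Matrix.mul_assoc, ← Matrix.mul_assoc (cst _ _),
      ← Matrix.mul_assoc ψ.aᵀ, ← Matrix.mul_assoc ψ.aᵀ, ψ.form, ← Matrix.mul_assoc, h]
  lat m hm := by
    have h := ψ.lat _ (φ.lat m hm)
    rw [← mulVec_mulVec]
    refine (congrArg (fun u => ψ.a *ᵥ u ∈ Z.M) ?_).mp h
    ext i : 1
    exact RingHom.map_mulVec (lm ψ.f.r) φ.a _ i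
  lie z := by
    obtain ⟨w, h⟩ := φ.lie z
    obtain ⟨u, h'⟩ := ψ.lie w
    have h1 := congrArg (fun m => m.map (lm ψ.f.r)) h
    simp only [Matrix.map_mul] at h1
    exact ⟨u, by rw [← Matrix.mul_assoc, h', Matrix.mul_assoc, h1, Matrix.mul_assoc]; rfl⟩

theorem Mo.comp_a {X Y Z : Ob E G} (φ : Mo X Y) (ψ : Mo Y Z) :
    (φ.comp ψ).a = ψ.a * φ.a.map (lm ψ.f.r) := rfl

theorem Mo.one_comp {X Y : Ob E G} (φ : Mo X Y) : (Mo.one X).comp φ = φ :=
  Mo.ext rfl ((congrArg (φ.a * ·) (Matrix.map_one _ (map_zero _) (map_one _))).trans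
    (Matrix.mul_one _))

theorem Mo.comp_one {X Y : Ob E G} (φ : Mo X Y) : φ.comp (Mo.one Y) = φ :=
  Mo.ext rfl (Matrix.one_mul _)

theorem Mo.assoc {X Y Z W : Ob E G} (φ : Mo X Y) (ψ : Mo Y Z) (χ : Mo Z W) :
    (φ.comp ψ).comp χ = φ.comp (ψ.comp χ) :=
  Mo.ext rfl (by
    rw [comp_a, comp_a, comp_a, comp_a, Matrix.map_mul, Matrix.mul_assoc, Matrix.map_map]
    rfl)

/-- The category of test objects of `Bun_G(E)`. -/
def cat (E : Ell) (G : Grp) : Category.{0} (Ob E G) where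
  Hom := Mo
  id := Mo.one
  comp := Mo.comp
  id_comp := Mo.one_comp
  comp_id := Mo.comp_one
  assoc := Mo.assoc

/-- The action of a matrix on vectors. -/
def act (a : Matrix (Fin N) (Fin N) (Ls A)) : (Fin N → Ls A) →ₗ[A] (Fin N → Ls A) where
  toFun v := a *ᵥ v
  map_add' := mulVec_add a
  map_smul' c v := by
    ext i : 1
    simp only [mulVec, dotProduct, Pi.smul_apply, RingHom.id_apply, Finset.smul_sum,
      ← HahnSeries.C_mul_eq_smul, mul_left_comm]

/-- The unit `δ` with `t_Y = δ • φ_* t_X`: the inverse of the Fredholm determinant of the operator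
which expresses the transported basis `Ad(a) f(T_X) Ad(a)⁻¹` in the basis `T_Y`. -/
def Mo.dl {X Y : Ob E G} (φ : Mo X Y) : Y.A.R :=
  Ring.inverse (fdet (crd Y.T ∘ₗ act (G.ad φ.a) ∘ₗ (lin fun p => lm φ.f.r ∘ X.T p) ∘ₗ
    pol 3 Y.A.R ∘ₗ act (G.ad φ.a.adjugate) ∘ₗ lin (std 3 Y.A.R)))

/-- The stack `Bun_G(E)` with its canonical bundle `ω` and the twist `(h - c)/(2h)`, `h = 2`. -/
def DE (E : Ell) (G : Grp) (c : ℂ) : St.TSite where
  C := Ob E G
  cat := cat E G
  A := Ob.A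
  f := Mo.f
  dl := Mo.dl
  cen _ := ∅
  s := (2 - c) / (2 * 2)

/-- Quantum geometric Langlands for elliptic curves, `SL_2` and `PGL_2`. -/
def QGL : Prop :=
  (∀ a b : ℂ, 4 * a ^ 3 + 27 * b ^ 2 ≠ 0 → ∃ E : Ell, E.a = a ∧ E.b = b) ∧
  ∀ (E : Ell) (c : ℂ), (∀ q : ℚ, c ≠ (q : ℂ)) →
    H96.DGEq (DE E SL2 c) (DE E SO3 (-1 / c)) ∧ H96.DGEq (DE E SO3 c) (DE E SL2 (-1 / c)) ∧
    H96.IsNz (DE E SL2 c) ∧ H96.IsNz (DE E SO3 c)

end

end Vale.Agent.P286E
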