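import Vale.Agent.P286.H274.LMod
import Vale.Agent.P286.H96.DGD

/-!
# DG categories with weak equivalences; equivalences and products
-/

set_option linter.all false

namespace Vale.Agent.P286E

open CategoryTheory Vale.Agent.P286 Vale.Agent.P286.H353 Vale.Agent.P286.St

noncomputable section

universe u v u₁ v₁ u₂ v₂ u₃ v₃ u₄ v₄

/-- A DG category with a class of weak equivalences. -/
structure WD : Type (max (u + 1) (v + 1)) where
  C : DGC.{u, v}
  W : MorphismProperty (Z0 C)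
  wid : ∀ X, W (𝟙 X)

/-- Two DG functors which are inverse to each other up to zigzags of weak equivalences. -/
def EQV (P : WD.{u, v}) (Q : WD.{u₁, v₁}) : Prop :=
  ∃ (X : DGF P.C Q.C) (Y : DGF Q.C P.C), Inv P.W Q.W X.z0 Y.z0

/-- The cartesian complexes on a test category. -/
def WD.st (T : TSite) : WD.{1, 1} := ⟨dgc T, zqis T, zqis_id⟩

/-- Complexes of vector spaces. -/
def WD.vec : WD.{1, 0} := ⟨H274.LMod 0, H274.LMod.W 0, H274.LMod.W_id⟩

theorem EQV.refl (P : WD.{u, v}) : EQV P P :=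
  ⟨DGF.id _, DGF.id _, fun _ _ _ h => h, fun _ _ _ h => h, Relation.EqvGen.refl _,
    Relation.EqvGen.refl _⟩

theorem EQV.symm {P : WD.{u, v}} {Q : WD.{u₁, v₁}} (h : EQV P Q) : EQV Q P := by
  obtain ⟨X, Y, h⟩ := h
  exact ⟨Y, X, h.symm⟩

theorem EQV.trans {P : WD.{u, v}} {Q : WD.{u₁, v₁}} {R : WD.{u₂, v₂}} (h : EQV P Q)
    (h' : EQV Q R) : EQV P R := by
  obtain ⟨X, Y, h⟩ := h
  obtain ⟨X', Y', h'⟩ := h'
  exact ⟨X.comp X', Y'.comp Y, fun _ _ a ha => h'.pF _ (h.pF a ha),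
    fun _ _ a ha => h.pG _ (h'.pG a ha),
    Zig.trans ((h'.un.right Y.z0 h.pG).left X.z0) h.un,
    Zig.trans ((h.co.right X'.z0 h'.pF).left Y'.z0) h'.co⟩

theorem EQV.dgEq {T T' : TSite} (h : EQV (WD.st T) (WD.st T')) : H96.DGEq T T' := by
  obtain ⟨X, Y, h⟩ := h
  obtain ⟨X', Y', h'⟩ := EQV.refl (WD.st T')
  obtain ⟨Φ, F, hF, ⟨i⟩⟩ := dgs_of_dgf h h'
  refine Relation.EqvGen.rel _ _ ⟨Φ.fn, ⟨fun _ _ n α => Φ.map n α,
    fun _ _ f => (Φ.ofHom_hom (H353.hm f)).symm, fun _ _ n => (Φ.map n).isLinear,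
    fun _ _ m n α => Φ.map_d m n α, fun _ _ _ _ _ _ h α β => Φ.map_comp h α β⟩, ?_⟩
  have hQ : (Ho.Q T).IsLocalization (CCx.qis T) := Functor.q_isLocalization (CCx.qis T)
  exact Functor.IsLocalization.of_equivalence_target (Ho.Q T) (CCx.qis T) (Φ.fn ⋙ Ho.Q T')
    F.asEquivalence i

/-- The product of two DG categories. -/
def dprod (C : DGC.{u, v}) (D : DGC.{u₁, v₁}) : DGC.{max u u₁, max v v₁} where
  Obj := C.Obj × D.Obj
  Hom X Y n := C.Hom X.1 Y.1 n × D.Hom X.2 Y.2 n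
  one X := (C.one X.1, D.one X.2)
  comp h f g := (C.comp h f.1 g.1, D.comp h f.2 g.2)
  d m n f := (C.d m n f.1, D.d m n f.2)
  one_comp f := Prod.ext (C.one_comp f.1) (D.one_comp f.2)
  comp_one f := Prod.ext (C.comp_one f.1) (D.comp_one f.2)
  assoc f g h := Prod.ext (C.assoc f.1 g.1 h.1) (D.assoc f.2 g.2 h.2)
  d_one X := Prod.ext (C.d_one X.1) (D.d_one X.2)
  d_comp f g hf hg := Prod.ext (C.d_comp f.1 g.1 (congrArg Prod.fst hf) (congrArg Prod.fst hg))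
    (D.d_comp f.2 g.2 (congrArg Prod.snd hf) (congrArg Prod.snd hg))

section

variable {C : DGC.{u, v}} {D : DGC.{u₁, v₁}} {B : DGC.{u₂, v₂}}

/-- The first projection. -/
def dfst (C : DGC.{u, v}) (D : DGC.{u₁, v₁}) : DGF (dprod C D) C where
  obj X := X.1
  map _ := LinearMap.fst ℂ _ _
  map_one _ := rfl
  map_comp _ _ _ := rfl
  map_d _ _ _ := rfl

/-- The second projection. -/
def dsnd (C : DGC.{u, v}) (D : DGC.{u₁, v₁}) : DGF (dprod C D) D where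
  obj X := X.2
  map _ := LinearMap.snd ℂ _ _
  map_one _ := rfl
  map_comp _ _ _ := rfl
  map_d _ _ _ := rfl

/-- The functor with two given components. -/
def dpair (Φ : DGF B C) (Ψ : DGF B D) : DGF B (dprod C D) where
  obj X := (Φ.obj X, Ψ.obj X)
  map n := (Φ.map n).prod (Ψ.map n)
  map_one X := Prod.ext (Φ.map_one X) (Ψ.map_one X)
  map_comp h α β := Prod.ext (Φ.map_comp h α β) (Ψ.map_comp h α β)
  map_d m n α := Prod.ext (Φ.map_d m n α) (Ψ.map_d m n α)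

/-- The morphism with two given components. -/
def zpr {X X' : Z0 C} {Y Y' : Z0 D} (a : X ⟶ X') (b : Y ⟶ Y') :
    zo (C := dprod C D) (ob X, ob Y) ⟶ zo (C := dprod C D) (ob X', ob Y') :=
  zmk (C := dprod C D) (zf a, zf b) (Prod.ext (zf_cl a) (zf_cl b))

variable {E : Type u₃} [Category.{v₃} E]

/-- The functor with two given components. -/
def zpair (F : E ⥤ Z0 C) (G : E ⥤ Z0 D) : E ⥤ Z0 (dprod C D) where
  obj X := zo (C := dprod C D) (ob (F.obj X), ob (G.obj X))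
  map a := zpr (F.map a) (G.map a)
  map_id X := z_ext (Prod.ext (congrArg zf (F.map_id X)) (congrArg zf (G.map_id X)))
  map_comp a b := z_ext (Prod.ext (congrArg zf (F.map_comp a b)) (congrArg zf (G.map_comp a b)))

/-- The transformation with two given components. -/
def zpairT {F F' : E ⥤ Z0 C} {G G' : E ⥤ Z0 D} (η : F ⟶ F') (θ : G ⟶ G') :
    zpair F G ⟶ zpair F' G' where
  app X := zpr (η.app X) (θ.app X)
  naturality _ _ a :=
    z_ext (Prod.ext (congrArg zf (η.naturality a)) (congrArg zf (θ.naturality a)))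

end

/-- The product. -/
def WD.prod (P : WD.{u, v}) (Q : WD.{u₁, v₁}) : WD.{max u u₁, max v v₁} where
  C := dprod P.C Q.C
  W _ _ a := P.W ((dfst P.C Q.C).z0.map a) ∧ Q.W ((dsnd P.C Q.C).z0.map a)
  wid X := ⟨P.wid _, Q.wid _⟩

theorem zig_pair {P : WD.{u, v}} {Q : WD.{u₁, v₁}} {E : Type u₃} [Category.{v₃} E]
    {F F' : E ⥤ Z0 P.C} {G G' : E ⥤ Z0 Q.C} (h : Zig P.W F F') (h' : Zig Q.W G G') :
    Zig (P.prod Q).W (zpair F G) (zpair F' G') := by
  refine Zig.trans (G := zpair F' G) ?_ ?_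
  · induction h with
    | rel F F' h =>
      obtain ⟨η, h⟩ := h
      exact NatW.zig ⟨zpairT η (𝟙 G), fun X => ⟨h X, Q.wid _⟩⟩
    | refl F => exact Relation.EqvGen.refl _
    | symm F F' _ ih => exact ih.symm
    | trans F F' F'' _ _ ih ih' => exact ih.trans ih'
  · induction h' with
    | rel G G' h =>
      obtain ⟨η, h⟩ := h
      exact NatW.zig ⟨zpairT (𝟙 F') η, fun X => ⟨P.wid _, h X⟩⟩
    | refl G => exact Relation.EqvGen.refl _
    | symm G G' _ ih => exact ih.symm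
    | trans G G' G'' _ _ ih ih' => exact ih.trans ih'

theorem EQV.prod {P : WD.{u, v}} {Q : WD.{u₁, v₁}} {P' : WD.{u₂, v₂}} {Q' : WD.{u₃, v₃}}
    (h : EQV P P') (h' : EQV Q Q') : EQV (P.prod Q) (P'.prod Q') := by
  obtain ⟨X, Y, h⟩ := h
  obtain ⟨X', Y', h'⟩ := h'
  exact ⟨dpair ((dfst _ _).comp X) ((dsnd _ _).comp X'),
    dpair ((dfst _ _).comp Y) ((dsnd _ _).comp Y'),
    fun _ _ a ha => ⟨h.pF _ ha.1, h'.pF _ ha.2⟩, fun _ _ a ha => ⟨h.pG _ ha.1, h'.pG _ ha.2⟩,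
    zig_pair (h.un.left (dfst P.C Q.C).z0) (h'.un.left (dsnd P.C Q.C).z0),
    zig_pair (h.co.left (dfst P'.C Q'.C).z0) (h'.co.left (dsnd P'.C Q'.C).z0)⟩

theorem EQV.comm (P : WD.{u, v}) (Q : WD.{u₁, v₁}) : EQV (P.prod Q) (Q.prod P) :=
  ⟨dpair (dsnd _ _) (dfst _ _), dpair (dsnd _ _) (dfst _ _), fun _ _ _ h => ⟨h.2, h.1⟩,
    fun _ _ _ h => ⟨h.2, h.1⟩, Relation.EqvGen.refl _, Relation.EqvGen.refl _⟩

theorem EQV.assoc (P : WD.{u, v}) (Q : WD.{u₁, v₁}) (R : WD.{u₂, v₂}) :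
    EQV ((P.prod Q).prod R) (P.prod (Q.prod R)) :=
  ⟨dpair ((dfst _ _).comp (dfst _ _)) (dpair ((dfst _ _).comp (dsnd _ _)) (dsnd _ _)),
    dpair (dpair (dfst _ _) ((dsnd _ _).comp (dfst _ _))) ((dsnd _ _).comp (dsnd _ _)),
    fun _ _ _ h => ⟨h.1.1, h.1.2, h.2⟩, fun _ _ _ h => ⟨⟨h.1, h.2.1⟩, h.2.2⟩,
    Relation.EqvGen.refl _, Relation.EqvGen.refl _⟩

/-- Four copies of the complexes of vector spaces. -/
def WD.v4 : WD.{1, 0} := (WD.vec.prod WD.vec).prod (WD.vec.prod WD.vec)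

end

end Vale.Agent.P286E
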