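import Vale.Agent.P286E.QS

/-!
# The chart data of the semistable loci for `SL_2` and `SO_3`
-/

set_option linter.all false

namespace Vale.Agent.P286E

open CategoryTheory Polynomial Vale.Agent.P286 Vale.Agent.P286ET

noncomputable section

section Dc

variable {A B : Type} [CommRing A] [Algebra ℂ A] [CommRing B] [Algebra ℂ B]

/-- The double cover `A[t]/(t² - f)`. -/
abbrev Dc (f : A) : Type := AdjoinRoot (X ^ 2 - C f : A[X])

/-- The structure map. -/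
def Dc.of (f : A) : A →ₐ[ℂ] Dc f := IsScalarTower.toAlgHom ℂ A (Dc f)

/-- The square root. -/
def Dc.t (f : A) : Dc f := AdjoinRoot.root _

theorem Dc.t_sq (f : A) : Dc.t f ^ 2 = Dc.of f f := by
  have h := AdjoinRoot.eval₂_root (X ^ 2 - C f : A[X])
  rw [eval₂_sub, eval₂_pow, eval₂_X, eval₂_C, sub_eq_zero] at h
  exact h

/-- The universal property. -/
def Dc.lift (f : A) (φ : A →ₐ[ℂ] B) (z : B) (h : z ^ 2 = φ f) : Dc f →ₐ[ℂ] B :=
  AdjoinRoot.liftAlgHom _ φ z (by rw [eval₂_sub, eval₂_pow, eval₂_X, eval₂_C, h]; exact sub_self _)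

theorem Dc.lift_of (f : A) (φ : A →ₐ[ℂ] B) (z : B) (h : z ^ 2 = φ f) (a : A) :
    Dc.lift f φ z h (Dc.of f a) = φ a := AdjoinRoot.liftAlgHom_of _ _ _ _ a

theorem Dc.lift_t (f : A) (φ : A →ₐ[ℂ] B) (z : B) (h : z ^ 2 = φ f) :
    Dc.lift f φ z h (Dc.t f) = z := AdjoinRoot.liftAlgHom_root _ _ _ _

theorem Dc.ext {f : A} {φ ψ : Dc f →ₐ[ℂ] B} (h : ∀ a, φ (Dc.of f a) = ψ (Dc.of f a))
    (ht : φ (Dc.t f) = ψ (Dc.t f)) : φ = ψ :=
  AdjoinRoot.algHom_ext' (AlgHom.ext h) ht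

theorem sgn_sq (ε : ℤˣ) : (((ε : ℤ) : B)) ^ 2 = 1 := by
  rcases Int.units_eq_one_or ε with rfl | rfl <;> simp

/-- The map of double covers over `φ` with `t ↦ ε t`. -/
def Dc.map (f : A) (φ : A →ₐ[ℂ] B) (ε : ℤˣ) : Dc f →ₐ[ℂ] Dc (φ f) :=
  Dc.lift f ((Dc.of (φ f)).comp φ) (((ε : ℤ) : Dc (φ f)) * Dc.t (φ f)) (by
    rw [mul_pow, sgn_sq, one_mul, Dc.t_sq]; rfl)

/-- The automorphism `t ↦ ε t`. -/
def Dc.sg (f : A) (ε : ℤˣ) : Dc f →ₐ[ℂ] Dc f := Dc.map f (AlgHom.id ℂ A) ε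

theorem Dc.map_of (f : A) (φ : A →ₐ[ℂ] B) (ε : ℤˣ) (a : A) :
    Dc.map f φ ε (Dc.of f a) = Dc.of (φ f) (φ a) := Dc.lift_of _ _ _ _ a

theorem Dc.map_t (f : A) (φ : A →ₐ[ℂ] B) (ε : ℤˣ) :
    Dc.map f φ ε (Dc.t f) = ((ε : ℤ) : Dc (φ f)) * Dc.t (φ f) := Dc.lift_t _ _ _ _

theorem Dc.sg_of (f : A) (ε : ℤˣ) (a : A) : Dc.sg f ε (Dc.of f a) = Dc.of f a := Dc.map_of _ _ _ a

theorem Dc.sg_t (f : A) (ε : ℤˣ) : Dc.sg f ε (Dc.t f) = ((ε : ℤ) : Dc f) * Dc.t f := Dc.map_t _ _ _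

theorem Dc.sg_one (f : A) : Dc.sg f 1 = AlgHom.id ℂ _ :=
  Dc.ext (Dc.sg_of f 1) (by rw [Dc.sg_t]; simp)

theorem Dc.sg_sg (f : A) (ε η : ℤˣ) : (Dc.sg f η).comp (Dc.sg f ε) = Dc.sg f (ε * η) :=
  Dc.ext (fun a => by simp [Dc.sg_of]) (by simp [Dc.sg_t, mul_assoc])

theorem Dc.map_sg (f : A) (φ : A →ₐ[ℂ] B) (ε η : ℤˣ) :
    (Dc.map f φ η).comp (Dc.sg f ε) = Dc.map f φ (ε * η) :=
  Dc.ext (fun a => by simp [Dc.sg_of, Dc.map_of]) (by simp [Dc.sg_t, Dc.map_t, mul_assoc])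

theorem Dc.sg_map (f : A) (φ : A →ₐ[ℂ] B) (ε η : ℤˣ) :
    (Dc.sg (φ f) η).comp (Dc.map f φ ε) = Dc.map f φ (ε * η) :=
  Dc.ext (fun a => by simp [Dc.sg_of, Dc.map_of]) (by simp [Dc.sg_t, Dc.map_t, mul_assoc])

theorem Dc.t_unit {f : A} (h : IsUnit f) : IsUnit (Dc.t f) :=
  (isUnit_pow_iff two_ne_zero).1 (Dc.t_sq f ▸ h.map (Dc.of f))

end Dc

/-- The arrows of the index category with signs. -/
inductive Ar : Ix → Ix → Type
  | aa (ε : ℤˣ) : Ar .a .a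
  | an (ε : ℤˣ) : Ar .a .n
  | nn (ε : ℤˣ) : Ar .n .n
  | bb : Ar .b .b
  | bn : Ar .b .n

/-- The identity. -/
def Ar.one : ∀ i, Ar i i
  | .a => .aa 1
  | .b => .bb
  | .n => .nn 1

/-- The composition. -/
def Ar.comp : ∀ {i j k}, Ar i j → Ar j k → Ar i k
  | _, _, _, .aa ε, .aa η => .aa (ε * η)
  | _, _, _, .aa ε, .an η => .an (ε * η)
  | _, _, _, .an ε, .nn η => .an (ε * η)
  | _, _, _, .nn ε, .nn η => .nn (ε * η)
  | _, _, _, .bb, .bb => .bb
  | _, _, _, .bb, .bn => .bn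
  | _, _, _, .bn, .nn _ => .bn

/-- The index category with signs. -/
def I2 : Type := Ix

instance : SmallCategory I2 where
  Hom := Ar
  id := Ar.one
  comp := Ar.comp
  id_comp α := by cases α <;> simp [Ar.one, Ar.comp]
  comp_id α := by cases α <;> simp [Ar.one, Ar.comp]
  assoc α β γ := by cases α <;> cases β <;> cases γ <;> simp [Ar.comp, mul_assoc]

namespace Star

variable (S : Star)

/-- The algebras. -/
def C2 : Ix → Type
  | .a => Dc S.fa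
  | .b => S.Cb
  | .n => Dc (S.ka S.fa)

instance cr2 : ∀ i, CommRing (S.C2 i)
  | .a => inferInstanceAs (CommRing (Dc S.fa))
  | .b => S.rb
  | .n => inferInstanceAs (CommRing (Dc (S.ka S.fa)))

instance alg2 : ∀ i, Algebra ℂ (S.C2 i)
  | .a => inferInstanceAs (Algebra ℂ (Dc S.fa))
  | .b => S.ab
  | .n => inferInstanceAs (Algebra ℂ (Dc (S.ka S.fa)))

/-- The functions. -/
def f2 : ∀ i, S.C2 i
  | .b => S.fb
  | _ => 1

/-- The transition maps. -/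
def κ2 : ∀ {i j}, Ar i j → (S.C2 i →ₐ[ℂ] S.C2 j)
  | _, _, .aa ε => Dc.sg S.fa ε
  | _, _, .an ε => Dc.map S.fa S.ka ε
  | _, _, .nn ε => Dc.sg (S.ka S.fa) ε
  | _, _, .bb => AlgHom.id ℂ S.Cb
  | _, _, .bn => (Dc.of (S.ka S.fa)).comp S.kb

/-- The units `c`. -/
def c2 : ∀ {i j}, Ar i j → S.C2 j
  | _, _, .aa ε => ((ε : ℤ) : Dc S.fa)
  | _, _, .an ε => ((ε : ℤ) : Dc (S.ka S.fa))
  | _, _, .nn ε => ((ε : ℤ) : Dc (S.ka S.fa))
  | _, _, .bb => (1 : S.Cb)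
  | _, _, .bn => Dc.of (S.ka S.fa) S.c * Dc.t (S.ka S.fa)

/-- The units `r`. -/
def r2 : ∀ {i j}, Ar i j → S.C2 j
  | _, _, .bn => Dc.of (S.ka S.fa) S.r
  | _, _, _ => 1

theorem sgn_unit {B : Type} [CommRing B] (ε : ℤˣ) : IsUnit (((ε : ℤ) : B)) :=
  ε.isUnit.map (Int.castRingHom B)

theorem sgn_mul {A B : Type} [CommRing A] [Algebra ℂ A] [CommRing B] [Algebra ℂ B]
    (φ : A →ₐ[ℂ] B) (ε η : ℤˣ) : (((ε * η : ℤˣ) : ℤ) : B) = φ ((ε : ℤ) : A) * ((η : ℤ) : B) := by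
  simp

theorem c_bn (η : ℤˣ) (z : S.Cn) : Dc.of (S.ka S.fa) z * Dc.t (S.ka S.fa) =
    Dc.sg (S.ka S.fa) η (Dc.of (S.ka S.fa) z * Dc.t (S.ka S.fa)) * ((η : ℤ) : Dc (S.ka S.fa)) := by
  rw [map_mul, Dc.sg_of, Dc.sg_t]
  linear_combination (-(Dc.of (S.ka S.fa) z * Dc.t (S.ka S.fa))) * sgn_sq (B := Dc (S.ka S.fa)) η

theorem f_bn : Dc.of (S.ka S.fa) (S.kb S.fb) =
    (Dc.of (S.ka S.fa) S.c * Dc.t (S.ka S.fa)) ^ 2 * 1 := by
  rw [S.kb_f, map_mul, map_pow, mul_pow, Dc.t_sq, mul_one]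

theorem one_c {A B : Type} [CommRing A] [Algebra ℂ A] [CommRing B] [Algebra ℂ B]
    (φ : A →ₐ[ℂ] B) (z : B) : z = φ 1 * z := by rw [map_one, one_mul]

/-- The chart datum in which the charts `a` and `n` are replaced by double covers with the action
of the signs. -/
def cd2 : CD I2 where
  C := S.C2
  cr := S.cr2
  alg := S.alg2
  f := S.f2
  κ := S.κ2
  c := S.c2
  r := S.r2
  κ_id i z := by
    cases i
    · exact AlgHom.congr_fun (Dc.sg_one _) z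
    · rfl
    · exact AlgHom.congr_fun (Dc.sg_one _) z
  κ_comp {i j k} (α : Ar i j) (β : Ar j k) z := by
    cases α <;> cases β
    · exact (AlgHom.congr_fun (Dc.sg_sg S.fa _ _) z).symm
    · exact (AlgHom.congr_fun (Dc.map_sg S.fa S.ka _ _) z).symm
    · exact (AlgHom.congr_fun (Dc.sg_map S.fa S.ka _ _) z).symm
    · exact (AlgHom.congr_fun (Dc.sg_sg (S.ka S.fa) _ _) z).symm
    · rfl
    · rfl
    · exact (Dc.sg_of (S.ka S.fa) _ (S.kb z)).symm
  c_id i := by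
    cases i
    · exact Int.cast_one
    · rfl
    · exact Int.cast_one
  c_comp {i j k} (α : Ar i j) (β : Ar j k) := by
    cases α <;> cases β
    · exact sgn_mul _ _ _
    · exact sgn_mul _ _ _
    · exact sgn_mul _ _ _
    · exact sgn_mul _ _ _
    · exact one_c _ _
    · exact one_c _ _
    · exact S.c_bn _ _
  r_id i := by cases i <;> rfl
  r_comp {i j k} (α : Ar i j) (β : Ar j k) := by
    cases α <;> cases β
    · exact one_c _ _
    · exact one_c _ _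
    · exact one_c _ _
    · exact one_c _ _
    · exact one_c _ _
    · exact one_c _ _
    · exact ((mul_one _).trans (Dc.sg_of (S.ka S.fa) _ S.r)).symm
  c_unit {i j} (α : Ar i j) := by
    cases α
    · exact sgn_unit _
    · exact sgn_unit _
    · exact sgn_unit _
    · exact isUnit_one
    · exact (S.c_unit.map _).mul (Dc.t_unit S.f_unit)
  r_unit {i j} (α : Ar i j) := by
    cases α
    · exact isUnit_one
    · exact isUnit_one
    · exact isUnit_one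
    · exact isUnit_one
    · exact S.r_unit.map _
  κ_f {i j} (α : Ar i j) := by
    cases α
    · exact (map_one _).trans ((mul_one _).trans (sgn_sq _)).symm
    · exact (map_one _).trans ((mul_one _).trans (sgn_sq _)).symm
    · exact (map_one _).trans ((mul_one _).trans (sgn_sq _)).symm
    · exact ((congrArg (· * S.fb) (one_pow 2)).trans (one_mul _)).symm
    · exact S.f_bn

end Star

/-! ### The elliptic curve -/

/-- The cubic. -/
def Ell.f (E : Ell) : ℂ[X] := X ^ 3 + C E.a * X + C E.b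

/-- A root of the cubic. -/
structure Rt (E : Ell) where
  e : ℂ
  rt : e ^ 3 + E.a * e + E.b = 0

variable {E : Ell} (e : Rt E)

/-- The quotient `f / (X - e)`. -/
def Rt.g : ℂ[X] := X ^ 2 + C e.e * X + C (e.e ^ 2 + E.a)

/-- The value `f'(e)`. -/
def Rt.d : ℂ := 3 * e.e ^ 2 + E.a

theorem Rt.fac : E.f = (X - C e.e) * e.g := by
  have h : E.b = -(e.e ^ 3 + E.a * e.e) := by linear_combination e.rt
  simp only [Ell.f, Rt.g, h, map_neg, map_add, map_pow, map_mul]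
  ring

theorem Rt.d_ne : e.d ≠ 0 := fun h => E.disc (by
  have ha : E.a = -3 * e.e ^ 2 := by rw [Rt.d] at h; linear_combination h
  have hb : E.b = 2 * e.e ^ 3 := by have := e.rt; rw [ha] at this; linear_combination this
  rw [ha, hb]; ring)

/-- The algebra of the intersection. -/
abbrev Ell.Cn (E : Ell) : Type := Localization.Away E.f

/-- The localisation map. -/
def Ell.ka (E : Ell) : ℂ[X] →ₐ[ℂ] E.Cn := IsScalarTower.toAlgHom ℂ ℂ[X] E.Cn

theorem Ell.f_unit (E : Ell) : IsUnit (E.ka E.f) := IsLocalization.Away.algebraMap_isUnit E.f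

/-- The inverse of `X - e`. -/
def Rt.w : E.Cn := E.ka e.g * IsLocalization.Away.invSelf E.f

theorem Rt.mul_w : E.ka (X - C e.e) * e.w = 1 := by
  rw [Rt.w, ← mul_assoc, ← map_mul, ← e.fac]
  exact IsLocalization.Away.mul_invSelf E.f

theorem Rt.w_unit : IsUnit e.w := IsUnit.of_mul_eq_one_right _ e.mul_w

theorem Rt.g_unit : IsUnit (E.ka e.g) :=
  isUnit_of_mul_isUnit_right (x := E.ka (X - C e.e)) (by rw [← map_mul, ← e.fac]; exact E.f_unit)

/-- The coordinate `u = e + f'(e)/(X - e)` of the translate by `(e, 0)`. -/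
def Rt.u : E.Cn := algebraMap ℂ E.Cn e.e + algebraMap ℂ E.Cn e.d * e.w

theorem Rt.aeval_g : aeval e.u e.g = algebraMap ℂ E.Cn e.d * e.w ^ 2 * E.ka e.g := by
  have h := e.mul_w
  have hC : ∀ z : ℂ, E.ka (C z) = algebraMap ℂ E.Cn z := fun z => E.ka.commutes z
  simp only [Rt.g, Rt.u, Rt.d, map_add, map_sub, map_mul, map_pow, aeval_X, aeval_C, hC,
    map_ofNat] at h ⊢
  generalize algebraMap ℂ E.Cn e.e = z at h ⊢
  generalize algebraMap ℂ E.Cn E.a = a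
  generalize E.ka X = x at h ⊢
  generalize e.w = w at h ⊢
  linear_combination (-(3 * z ^ 2 + a) * (1 + (x - z) * w + 3 * z * w)) * h

theorem Rt.d_unit : IsUnit (algebraMap ℂ E.Cn e.d) := (IsUnit.mk0 _ e.d_ne).map _

/-- The map from the second chart. -/
def Rt.kb : Localization.Away e.g →ₐ[ℂ] E.Cn :=
  IsLocalization.liftAlgHom (M := Submonoid.powers e.g) (f := aeval e.u) (by
    rintro ⟨_, n, rfl⟩
    simp only [map_pow]
    rw [e.aeval_g]
    exact ((e.d_unit.mul (e.w_unit.pow 2)).mul e.g_unit).pow n)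

theorem Rt.kb_of (p : ℂ[X]) : e.kb (algebraMap ℂ[X] _ p) = aeval e.u p := by
  simp [Rt.kb]

/-- The two charts of the projective line of the coordinate `x`. -/
def ES : Star where
  Ca := ℂ[X]
  Cb := Localization.Away e.g
  Cn := E.Cn
  fa := E.f
  fb := algebraMap ℂ[X] _ E.f
  ka := E.ka
  kb := e.kb
  c := -(algebraMap ℂ E.Cn e.d * e.w ^ 2)
  r := E.ka (X - C e.e)
  c_unit := (e.d_unit.mul (e.w_unit.pow 2)).neg
  r_unit := IsUnit.of_mul_eq_one _ e.mul_w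
  f_unit := E.f_unit
  kb_f := by
    have h1 : E.ka E.f = E.ka (X - C e.e) * E.ka e.g := by rw [← map_mul, ← e.fac]
    have h2 : aeval e.u E.f = aeval e.u (X - C e.e) * aeval e.u e.g := by rw [← map_mul, ← e.fac]
    rw [e.kb_of, h1, h2, e.aeval_g, map_sub, aeval_X, aeval_C, Rt.u]
    linear_combination (-(algebraMap ℂ E.Cn e.d) ^ 2 * e.w ^ 3 * E.ka e.g) * e.mul_w

/-- The chart datum for `SL_2`. -/
def D1 : CD Ix := (ES e).cd

/-- The chart datum for the neutral component of `Bun_{SO_3}`. -/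
def D2 : CD I2 := (ES e).cd2

/-- The middle statement. -/
def MID : Prop := ∀ (E : Ell) (e : Rt E) (s s' : ℂ) (m m' : ℤ), (∀ q : ℚ, s ≠ (q : ℂ)) →
  (2 * s + m) * (2 * s' + m') = -1 →
    EQV (WD.st (QS (D1 e) SL2 s)) ((WD.st (QS (D2 e) SO3 s')).prod WD.v4)

/-- The geometry for `SL_2`. -/
def GEO1 : Prop := ∀ (E : Ell) (e : Rt E) (c : ℂ), (∀ q : ℚ, c ≠ (q : ℂ)) →
  EQV (WD.st (DE E SL2 c)) (WD.st (QS (D1 e) SL2 (2 - c)))

/-- The geometry for `SO_3`. -/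
def GEO2 : Prop := ∀ (E : Ell) (e : Rt E) (c : ℂ), (∀ q : ℚ, c ≠ (q : ℂ)) →
  EQV (WD.st (DE E SO3 c)) ((WD.st (QS (D2 e) SO3 ((2 - c) / 4))).prod WD.v4)

end

end Vale.Agent.P286E
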