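import Vale.Agent.P286E.Defs
import Vale.Agent.P286E.Eqv
import Vale.Agent.P286ET.Defs

/-!
# Diagrams of charts `{(p, Y) : |Y|² = f(p)} / G`
-/

set_option linter.all false

namespace Vale.Agent.P286E

open CategoryTheory Matrix Polynomial Vale.Agent.P286 Vale.Agent.P286ET

noncomputable section

/-- A chart datum: algebras `C i` with functions `f i`, transition maps `κ`, units `c` with
`κ f = c² f`, and a cocycle `r` of units. -/
structure CD (I : Type) [SmallCategory I] : Type 1 where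
  C : I → Type
  [cr : ∀ i, CommRing (C i)]
  [alg : ∀ i, Algebra ℂ (C i)]
  f : ∀ i, C i
  κ : ∀ {i j : I}, (i ⟶ j) → (C i →ₐ[ℂ] C j)
  c : ∀ {i j : I}, (i ⟶ j) → C j
  r : ∀ {i j : I}, (i ⟶ j) → C j
  κ_id : ∀ (i : I) (z : C i), κ (𝟙 i) z = z
  κ_comp : ∀ {i j k : I} (α : i ⟶ j) (β : j ⟶ k) (z : C i), κ (α ≫ β) z = κ β (κ α z)
  c_id : ∀ i : I, c (𝟙 i) = 1
  c_comp : ∀ {i j k : I} (α : i ⟶ j) (β : j ⟶ k), c (α ≫ β) = κ β (c α) * c β
  r_id : ∀ i : I, r (𝟙 i) = 1
  r_comp : ∀ {i j k : I} (α : i ⟶ j) (β : j ⟶ k), r (α ≫ β) = κ β (r α) * r β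
  c_unit : ∀ {i j : I} (α : i ⟶ j), IsUnit (c α)
  r_unit : ∀ {i j : I} (α : i ⟶ j), IsUnit (r α)
  κ_f : ∀ {i j : I} (α : i ⟶ j), κ α (f i) = c α ^ 2 * f j

attribute [instance] CD.cr CD.alg

section

variable {A B : Type} [CommRing A] [Algebra ℂ A] [CommRing B] [Algebra ℂ B]

/-- The element `∑ Y_i β_i` of `𝔤 ⊗ A`. -/
def Grp.ht (G : Grp) (Y : Fin 3 → A) : Matrix (Fin G.N) (Fin G.N) A :=
  ∑ i, Y i • (G.β i).map (algebraMap ℂ A)

/-- The points of `G`. -/
structure Grp.Pt (G : Grp) (h : Matrix (Fin G.N) (Fin G.N) A) : Prop where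
  det : h.det = 1
  form : hᵀ * G.F.map (algebraMap ℂ A) * h = G.F.map (algebraMap ℂ A)

theorem map_cm {N : ℕ} (φ : A →ₐ[ℂ] B) (m : Matrix (Fin N) (Fin N) ℂ) :
    (m.map (algebraMap ℂ A)).map φ = m.map (algebraMap ℂ B) :=
  Matrix.ext fun i j => φ.commutes (m i j)

theorem map_mul' {N : ℕ} (φ : A →ₐ[ℂ] B) (m n : Matrix (Fin N) (Fin N) A) :
    (m * n).map φ = m.map φ * n.map φ := Matrix.map_mul (f := (φ : A →+* B))

theorem map_smul' {N : ℕ} (φ : A →ₐ[ℂ] B) (a : A) (m : Matrix (Fin N) (Fin N) A) :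
    (a • m).map φ = φ a • m.map φ := Matrix.ext fun i j => map_mul φ a (m i j)

theorem Grp.ht_map (G : Grp) (φ : A →ₐ[ℂ] B) (Y : Fin 3 → A) :
    (G.ht Y).map φ = G.ht (φ ∘ Y) := by
  refine Matrix.ext fun i j => ?_
  simp [Grp.ht, Matrix.sum_apply]

theorem Grp.Pt.one (G : Grp) : G.Pt (1 : Matrix (Fin G.N) (Fin G.N) A) :=
  ⟨det_one, by rw [transpose_one, Matrix.one_mul, Matrix.mul_one]⟩

theorem Grp.Pt.map {G : Grp} {h : Matrix (Fin G.N) (Fin G.N) A} (hh : G.Pt h) (φ : A →ₐ[ℂ] B) :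
    G.Pt (h.map φ) := by
  refine ⟨?_, ?_⟩
  · have := (φ : A →+* B).map_det h
    rw [hh.det, map_one] at this
    exact this.symm
  · have := congrArg (fun m => m.map φ) hh.form
    simp only [map_mul', map_cm, transpose_map] at this
    exact this

theorem Grp.Pt.mul {G : Grp} {h k : Matrix (Fin G.N) (Fin G.N) A} (hh : G.Pt h) (hk : G.Pt k) :
    G.Pt (h * k) :=
  ⟨by rw [det_mul, hh.det, hk.det, one_mul], by
    rw [transpose_mul, Matrix.mul_assoc, Matrix.mul_assoc, ← Matrix.mul_assoc (G.F.map _),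
      ← Matrix.mul_assoc hᵀ, ← Matrix.mul_assoc hᵀ, hh.form, ← Matrix.mul_assoc, hk.form]⟩

end

variable {I : Type} [SmallCategory I] {D : CD I} {G : Grp}

/-- A point of a chart. -/
structure QO (D : CD I) : Type 1 where
  i : I
  A : SmAlg
  x : D.C i →ₐ[ℂ] A.R
  Y : Fin 3 → A.R
  sq : Y ⬝ᵥ Y = x (D.f i)

/-- A morphism: `Ad(h) φ(Y) = c Y'`. -/
@[ext]
structure QM (G : Grp) (X Y : QO D) : Type where
  α : X.i ⟶ Y.i
  φ : X.A.Hm Y.A
  h : Matrix (Fin G.N) (Fin G.N) Y.A.R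
  pt : G.Pt h
  hx : ∀ z, φ (X.x z) = Y.x (D.κ α z)
  hY : h * G.ht (φ ∘ X.Y) = Y.x (D.c α) • (G.ht Y.Y * h)

/-- The identity. -/
def QM.one (G : Grp) (X : QO D) : QM G X X where
  α := 𝟙 _
  φ := AlgHom.id ℂ _
  h := 1
  pt := Grp.Pt.one G
  hx z := by rw [D.κ_id]; rfl
  hY := by rw [D.c_id, map_one, one_smul, Matrix.one_mul, Matrix.mul_one]; rfl

/-- The composition. -/
def QM.comp {X Y Z : QO D} (u : QM G X Y) (v : QM G Y Z) : QM G X Z where
  α := u.α ≫ v.α
  φ := v.φ.comp u.φ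
  h := v.h * u.h.map v.φ
  pt := v.pt.mul (u.pt.map v.φ)
  hx z := by rw [D.κ_comp, ← v.hx, ← u.hx]; rfl
  hY := by
    have h1 := congrArg (fun m => m.map v.φ) u.hY
    simp only [map_mul', map_smul', Grp.ht_map] at h1
    have h2 : (v.φ.comp u.φ) ∘ X.Y = v.φ ∘ u.φ ∘ X.Y := rfl
    rw [h2, Matrix.mul_assoc, h1, Matrix.mul_smul, ← Matrix.mul_assoc, v.hY, v.hx, D.c_comp,
      map_mul, Matrix.smul_mul, smul_smul, Matrix.mul_assoc]

/-- The category of points of the charts. -/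
def qcat (D : CD I) (G : Grp) : Category.{0} (QO D) where
  Hom := QM G
  id := QM.one G
  comp := QM.comp
  id_comp u := QM.ext (Category.id_comp _) rfl
    ((congrArg (u.h * ·) (Matrix.map_one _ (map_zero _) (map_one _))).trans (Matrix.mul_one _))
  comp_id u := QM.ext (Category.comp_id _) rfl (Matrix.one_mul _)
  assoc u v w := QM.ext (Category.assoc _ _ _) rfl (by
    change w.h * (v.h * u.h.map v.φ).map w.φ = w.h * v.h.map w.φ * u.h.map (w.φ.comp v.φ)
    rw [map_mul', Matrix.mul_assoc]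
    rfl)

/-- The test category of the stack glued from the charts, with the line bundle defined by the
cocycle `r` and the twist `s`. -/
def QS (D : CD I) (G : Grp) (s : ℂ) : St.TSite where
  C := QO D
  cat := qcat D G
  A := QO.A
  f := QM.φ
  dl {_ Y} u := Y.x (D.r (QM.α u))
  cen _ := ∅
  s := s

/-! ### Two charts and their intersection -/

/-- Two charts `a`, `b` and their intersection `n`; `f` and the generator on `n` come from `a`. -/
structure Star : Type 1 where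
  Ca : Type
  Cb : Type
  Cn : Type
  [ra : CommRing Ca]
  [rb : CommRing Cb]
  [rn : CommRing Cn]
  [aa : Algebra ℂ Ca]
  [ab : Algebra ℂ Cb]
  [an : Algebra ℂ Cn]
  fa : Ca
  fb : Cb
  ka : Ca →ₐ[ℂ] Cn
  kb : Cb →ₐ[ℂ] Cn
  c : Cn
  r : Cn
  c_unit : IsUnit c
  r_unit : IsUnit r
  f_unit : IsUnit (ka fa)
  kb_f : kb fb = c ^ 2 * ka fa

attribute [instance] Star.ra Star.rb Star.rn Star.aa Star.ab Star.an

namespace Star

variable (S : Star)

/-- The algebras. -/
def C : Ix → Type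
  | .a => S.Ca
  | .b => S.Cb
  | .n => S.Cn

instance cr : ∀ i, CommRing (S.C i)
  | .a => S.ra
  | .b => S.rb
  | .n => S.rn

instance alg : ∀ i, Algebra ℂ (S.C i)
  | .a => S.aa
  | .b => S.ab
  | .n => S.an

/-- The functions. -/
def f : ∀ i, S.C i
  | .a => S.fa
  | .b => S.fb
  | .n => S.ka S.fa

/-- The transition maps. -/
def κ : ∀ i j : Ix, i ≤ j → (S.C i →ₐ[ℂ] S.C j)
  | .a, .a, _ => AlgHom.id ℂ _
  | .b, .b, _ => AlgHom.id ℂ _
  | .n, .n, _ => AlgHom.id ℂ _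
  | .a, .n, _ => S.ka
  | .b, .n, _ => S.kb
  | .a, .b, h => absurd h (by rintro (h | h) <;> cases h)
  | .b, .a, h => absurd h (by rintro (h | h) <;> cases h)
  | .n, .a, h => absurd h (by rintro (h | h) <;> cases h)
  | .n, .b, h => absurd h (by rintro (h | h) <;> cases h)

/-- The cocycle with the value `z` on the arrow `b → n`. -/
def u (z : S.Cn) : ∀ _ j : Ix, S.C j
  | .b, .n => z
  | _, _ => 1

theorem u_comp (z : S.Cn) {i j k : Ix} (h : i ≤ j) (h' : j ≤ k) :
    S.u z i k = S.κ j k h' (S.u z i j) * S.u z j k := by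
  rcases h with rfl | rfl <;> rcases h' with rfl | rfl <;> cases i <;>
    first
    | exact (mul_one (1 : S.Ca)).symm
    | exact (mul_one (1 : S.Cb)).symm
    | exact (mul_one (1 : S.Cn)).symm
    | exact (mul_one (z : S.Cn)).symm
    | exact ((congrArg (· * (1 : S.Cn)) (map_one S.ka)).trans (one_mul _)).symm
    | exact ((congrArg (· * z) (map_one S.kb)).trans (one_mul _)).symm

/-- The chart datum. -/
def cd : CD Ix where
  C := S.C
  f := S.f
  κ {i j} α := S.κ i j (leOfHom α)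
  c {i j} _ := S.u S.c i j
  r {i j} _ := S.u S.r i j
  κ_id i z := by cases i <;> rfl
  κ_comp {i j k} α β z := by
    rcases leOfHom α with rfl | rfl <;> rcases leOfHom β with rfl | rfl <;> cases i <;> rfl
  c_id i := by cases i <;> rfl
  c_comp α β := S.u_comp _ (leOfHom α) (leOfHom β)
  r_id i := by cases i <;> rfl
  r_comp α β := S.u_comp _ (leOfHom α) (leOfHom β)
  c_unit {i j} _ := by cases i <;> cases j <;> first | exact isUnit_one | exact S.c_unit
  r_unit {i j} _ := by cases i <;> cases j <;> first | exact isUnit_one | exact S.r_unit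
  κ_f {i j} α := by
    rcases leOfHom α with rfl | rfl <;> cases i <;>
      first | exact S.kb_f | exact ((congrArg (· * _) (one_pow 2)).trans (one_mul _)).symm

end Star

end

end Vale.Agent.P286E
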